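import Vale.Agent.P243.AboveThird

/-!
# P243: cylinder coverings of every convex body exceed the one-third bound uniformly
-/

open MeasureTheory

namespace Vale.Agent.Results.P243.AboveOneThird

open Vale.Agent.P243

/-- There is `δ > 0` such that every countable cylinder covering of every convex body in three
space has relative area at least `1/3 + δ`, hence total base area at least `1/3 + δ` times the
least shadow. -/
theorem result :
    ∃ δ : ℝ, 0 < δ ∧ ∀ (K : Set E3) (ι : Type) [Countable ι] (u : ι → E3) (B : ∀ i, BaseSet (u i)),
      IsBody K → IsCylinderCovering K u B →
        ENNReal.ofReal (1 / 3 + δ) ≤ relativeArea3 K u B ∧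
        ENNReal.ofReal (1 / 3 + δ) * leastShadow3 K ≤ totalArea3 u B :=
  above_third

end Vale.Agent.Results.P243.AboveOneThird
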