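import Vale.Agent.P243.RForm.Tetra

/-!
# P243: the 1-Codimensional Cylinder Covering Conjecture fails
-/

open MeasureTheory

namespace Vale.Agent.Results.P243.CodimOneConjectureFails

open Vale.Agent.P243

/-- There is a convex body in three space covered by sixteen cylinders with measurable bases whose base areas, each
divided by the area of the projection of the body along the axis of that cylinder, sum to at most
`15497/32400`, which is less than one half. -/
theorem result :
    (15497 / 32400 : ℝ) < 1 / 2 ∧
    ∃ (K : Set E3) (u : Fin 16 → E3) (B : ∀ i, BaseSet (u i)),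
      IsCompact K ∧ Convex ℝ K ∧ (interior K).Nonempty ∧ IsCylinderCovering K u B ∧
        (∀ i, MeasurableSet (α := ↥(planeOf (u i))) (B i)) ∧
        (∀ i, areaOn (u i) (projectionOn (u i) K) ≠ 0 ∧
          areaOn (u i) (projectionOn (u i) K) ≠ ⊤) ∧
        ∑ i, areaOn (u i) (B i) / areaOn (u i) (projectionOn (u i) K) ≤
          ENNReal.ofReal (15497 / 32400) :=
  ⟨by norm_num, RForm.exists_small_covering⟩

end Vale.Agent.Results.P243.CodimOneConjectureFails
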