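import Vale.Agent.P243.Coplanar.Slice

/-!
# P243: Bang's half-area inequality holds for coverings with axes parallel to one plane
-/

open MeasureTheory
open scoped RealInnerProductSpace

namespace Vale.Agent.Results.P243.CoplanarHalfArea

open Vale.Agent.P243

/-- For every convex body in three space and every countable covering by cylinders whose axes are
all parallel to one plane, in particular every covering that uses at most two directions, the
total base area is at least half of the least area of a shadow. -/
theorem result :
    (∀ (K : Set E3) (ι : Type) [Countable ι] (u : ι → E3) (B : ∀ i, BaseSet (u i)),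
      IsBody K → IsCylinderCovering K u B → (∃ ν : E3, ‖ν‖ = 1 ∧ ∀ i, ⟪ν, u i⟫ = 0) →
        ENNReal.ofReal (1 / 2) * leastShadow3 K ≤ totalArea3 u B) ∧
    ∀ (K : Set E3) (ι : Type) [Countable ι] (u : ι → E3) (B : ∀ i, BaseSet (u i)) (p q : E3),
      IsBody K → IsCylinderCovering K u B → (∀ i, u i = p ∨ u i = q) →
        ENNReal.ofReal (1 / 2) * leastShadow3 K ≤ totalArea3 u B :=
  Coplanar.coplanar_half

end Vale.Agent.Results.P243.CoplanarHalfArea
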