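import Vale.Agent.P243.Statement

/-!
# P243: Bang's half-area inequality holds for every centrally symmetric convex body
-/

open MeasureTheory

namespace Vale.Agent.Results.P243.SymmetricHalfArea

open Vale.Agent.P243

/-- For every centrally symmetric convex body in three space and every countable covering by
cylinders, the total base area is at least `√2 π / 8` times the least area of a shadow, and this
constant exceeds one half. -/
theorem result :
    (1 / 2 : ℝ) < Real.sqrt 2 * Real.pi / 8 ∧
    ∀ (K : Set E3) (ι : Type) [Countable ι] (u : ι → E3) (B : ∀ i, BaseSet (u i)),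
      IsSymmetricBody K → IsCylinderCovering K u B →
        ENNReal.ofReal (Real.sqrt 2 * Real.pi / 8) * leastShadow3 K ≤ totalArea3 u B := by
  refine ⟨half_lt_symConst, fun K ι _ u B hK hcov => ?_⟩
  obtain ⟨h1, h2, h3, z, h4⟩ := hK
  obtain ⟨v, hv, hle⟩ := symmetric_bound K h1 h2 h3 z h4 u hcov.1 B hcov.2
  exact le_trans (mul_le_mul_right (iInf₂_le v hv) _) hle

end Vale.Agent.Results.P243.SymmetricHalfArea
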